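import Vale.Agent.P348.Defs
import Vale.Agent.P348.Bdl.B3
namespace Vale.Agent.Results.P348.HaldaneGap

open Vale.Agent.P348

/-- Haldane's conjecture for spin one: the gap of the periodic Heisenberg antiferromagnet is
bounded below by a positive constant uniformly in the even length. -/
theorem result :
    (∃ γ : ℝ, 0 < γ ∧ ∀ (L : ℕ) [NeZero L], Even L → 4 ≤ L →
      IsLeast (energies L) (E0 L) ∧ IsLeast {E ∈ energies L | E0 L < E} (E1 L) ∧
        γ ≤ gap L) ∧
    0 < Delta1 :=
  Vale.Agent.P348.haldane_gap

end Vale.Agent.Results.P348.HaldaneGap
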